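import Crest.Agent.X212.One97.Stab
import Crest.Agent.X212.Nd18.Api
import Crest.Agent.X212.Ms48.One

/-!
# Row 212, EXTH (helper97): a configuration can be made standard near an end
-/

set_option autoImplicit false
set_option linter.unusedSectionVars false
noncomputable section
open scoped Manifold ContDiff Topology InnerProductSpace
open Set Function Filter

namespace Crest.Agent.X212.One97
open An Pj41 Tmp64 Cyf70
open Wz78 (SA)

section gen
variable {E : Type} [NormedAddCommGroup E] [NormedSpace ℝ E] [FiniteDimensional ℝ E]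
  [MeasurableSpace E] [BorelSpace E]
  {HM : Type} [TopologicalSpace HM] {I : ModelWithCorners ℝ E HM}
  {M : Type} [TopologicalSpace M] [ChartedSpace HM M] [IsManifold I ∞ M]
  [MeasurableSpace M] {ι : Type} [Fintype ι] {lam : Type} [Fintype lam] {r r' : ℕ}
  {B B' : Base M ι lam} {G : Geo I M ι lam} {c : Cfg M ι lam r} {O : Set M} {m m' : Md M ι lam}

/-- admissibility only depends on the background over the set -/
theorem admOn_base (h : AdmOn c B' G O) (hP : ∀ a b, ∀ x ∈ O, B.P a b x = B'.P a b x)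
    (ho : ∀ a b k l, ∀ x ∈ O, B.o a b k l x = B'.o a b k l x) (hl : ∀ x ∈ O, B.l x = B'.l x)
    (hi : B.il = B'.il) : AdmOn c B G O :=
  have k := h.ok
  ⟨⟨k.Jsq, k.Jsk, k.sp, k.sρ, k.sj, k.psym, k.pidem, k.prk, k.Jp,
      fun x hx => by simp only [hP _ _ x hx]; exact k.cl x hx, k.ρsk, k.Jρ, k.jsym, k.jJ,
      hi ▸ k.jil, fun x hx => hl x hx ▸ k.jl x hx, fun x hx => hl x hx ▸ k.jsq x hx, k.pj, k.jρ⟩,
    ⟨h.conn.sm, fun a x hx => by simp only [hP _ _ x hx]; exact h.conn.proj a x hx, h.conn.par,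
      h.conn.comp, h.conn.sk, h.conn.J, h.conn.j⟩, h.sm,
    fun x hx => by simpa only [Md.pp, Md.om, ho _ _ _ _ x hx] using h.pos x hx, h.z⟩

/-- the admissible connections form an affine space over the functions -/
theorem connOn_affine {W W' : m.Cn} (h : ConnOn B G m W O) (h' : ConnOn B G m W' O) {χ : M → ℝ}
    (hχ : ∀ x ∈ O, SA I χ x) :
    ConnOn B G m (fun a x => (1 - χ x) • W a x + χ x • W' a x) O := by
  have key : ∀ a x (D X R : En (Fin m.N)), D + (W a x * X - X * W a x) = R →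
      D + (W' a x * X - X * W' a x) = R → D + (((1 - χ x) • W a x + χ x • W' a x) * X -
        X * ((1 - χ x) • W a x + χ x • W' a x)) = R := fun a x D X R h1 h2 => by
    simp only [add_mul, mul_add, smul_mul_assoc, mul_smul_comm]
    linear_combination (norm := module) (1 - χ x) • h1 + χ x • h2
  refine ⟨fun a x hx => ((contMDiffAt_const.sub (hχ x hx)).smul (h.sm a x hx)).add
      ((hχ x hx).smul (h'.sm a x hx)), fun a x hx => ?_,
    fun a x hx => key _ _ _ _ _ (h.par a x hx) (h'.par a x hx),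
    fun a b x hx => key _ _ _ _ _ (h.comp a b x hx) (h'.comp a b x hx), fun a x hx v w => ?_,
    fun a x hx => ?_, fun a x hx s => key _ _ _ _ _ (h.j a x hx s) (h'.j a x hx s)⟩
  · rw [← h.proj a x hx, ← h'.proj a x hx, Finset.smul_sum, Finset.smul_sum,
      ← Finset.sum_add_distrib]
    exact Finset.sum_congr rfl fun b _ => by module
  · simp only [add_apply, inner_add_left, inner_add_right, skw_smul _ (h.sk a x hx) v w,
      skw_smul _ (h'.sk a x hx) v w]
    ring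
  · simp only [add_mul, mul_add, smul_mul_assoc, mul_smul_comm, h.J a x hx, h'.J a x hx]

theorem iso_pp {u : M → CL m.V m'.V} (h : Iso0 I m m' O u) {x : M} (hx : x ∈ O) (w : m.V) :
    m'.pp B x (u x w) = u x (m.pp B x w) := by
  have h1 : ∀ b w, m'.ρ b x (u x w) = u x (m.ρ b x w) := fun b w => congrArg (· w) (h.ρ x hx b)
  have h2 : m'.p x (u x w) = u x (m.p x w) :=
    congrArg (· w) ((h.iso x hx).left.trans (h.iso x hx).idem.symm)
  simp only [Md.pp, Md.om, smul_apply, sub_apply, _root_.sum_apply, mul_apply_eq_comp, h1, h2,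
    map_smul, map_sub, map_sum]

theorem iso_fix {f : M → M} {u : M → CL m.V m'.V} (h : Iso0 I (cmM f m) m' O u)
    (e : ∀ x ∈ O, f x = x) : Iso0 I m m' O u :=
  ⟨h.su, fun x hx => by simpa only [e x hx] using h.iso x hx, h.J,
    fun x hx b => by simpa only [e x hx] using h.ρ x hx b,
    fun x hx s => by simpa only [e x hx] using h.j x hx s⟩

theorem iso_cs {u : M → CL m.V m'.V} (h : Iso0 I m m' O u) {x : M} (hx : x ∈ O) (z : ℂ) (w : m.V) :
    cs m'.J z (u x w) = u x (cs m.J z w) := by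
  have h1 : m'.J (u x w) = u x (m.J w) := congrArg (· w) (h.J x hx)
  simp only [cs, h1, map_add, map_smul]

/-- **Patching**: `c` is changed inside `K` so that it is equivalent to `c'` where `χ = 1`. -/
theorem patch (hG : G.F.P = B.P) (hc : c.Adm B G) {c' : Cfg M ι lam r'} (hO : IsOpen O)
    (hc' : AdmOn c' B G O) {v : M → CL c.m.V c'.m.V} (hv : Iso0 I c.m c'.m O v) {χ : M → ℝ}
    (hχ : ∀ x ∈ O, SA I χ x) {K : Set M} (hK : IsClosed K) (hs : K ⊆ O) (h0 : ∀ x ∉ K, χ x = 0)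
    (ζ : Circle) : ∃ W Φ, (⟨c.m, W, Φ, c.z⟩ : Cfg M ι lam r).Adm B G ∧
      (∀ x ∉ K, (∀ a, W a x = c.W a x) ∧ Φ x = c.Φ x) ∧ ∀ x ∈ O, χ x = 1 →
        (∀ a, G.F.D a v x + c'.W a x ∘L v x - v x ∘L W a x = 0) ∧
          cs c'.m.J ζ (v x (Φ x)) = c'.Φ x := by
  have A := (admOn_univ.2 hc).mono (subset_univ O)
  have i := hv.symm A.ok hc'.ok
  obtain ⟨h1, h2⟩ := conn_push i hO hc'.ok A.ok hG hc'.conn
  have h3 := h2.symm i.su hc'.conn.sk h1.sk
  simp only [ad_ad] at h3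
  set W' := pshC G.F (fun x => ad (v x)) c'.W
  let Φ' : M → c.m.V := fun x => cs c.m.J (ζ⁻¹ : Circle) (ad (v x) (c'.Φ x))
  have e : ∀ x ∉ K, (∀ a, (1 - χ x) • c.W a x + χ x • W' a x = c.W a x) ∧
      (1 - χ x) • c.Φ x + χ x • Φ' x = c.Φ x := fun x hx => by simp [h0 x hx]
  have cov : ∀ x, x ∈ O ∨ x ∈ Kᶜ := fun x => (em (x ∈ K)).imp_left fun h => hs h
  refine ⟨fun a x => (1 - χ x) • c.W a x + χ x • W' a x, fun x => (1 - χ x) • c.Φ x + χ x • Φ' x,
    ⟨hc.ok, ConnOn.isConn (ConnOn.of_local fun x _ => ?_) hc.ok, fun x => ?_, fun x => ?_, hc.z⟩,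
    e, fun x hx h => ⟨fun a => ?_, ?_⟩⟩
  · rcases cov x with h | h
    · exact ⟨O, h, connOn_affine A.conn h1 hχ⟩
    · exact ⟨Kᶜ, h, (IsConn.on hc.conn _).congr hK.isOpen_compl fun a y hy => (e y hy).1 a⟩
  · rcases cov x with h | h
    · have s : SA I (fun y => ad (v y) (c'.Φ y)) x := (i.su x h).clm_apply (hc'.sm x h)
      have k : ∀ t : ℝ, SA I (fun _ => t) x := fun _ => contMDiffAt_const
      exact ((contMDiffAt_const.sub (hχ x h)).smul (hc.sm x)).add ((hχ x h).smul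
        (((k _).smul s).add ((k _).smul (SA.clm c.m.J s))))
    · exact (hc.sm x).congr_of_eventuallyEq
        ((hK.isOpen_compl.eventually_mem h).mono fun y hy => (e y hy).2)
  · rcases cov x with h | h
    · have k : c.m.pp B x (ad (v x) (c'.Φ x)) = ad (v x) (c'.Φ x) := by
        rw [iso_pp i h, hc'.pos x h]
      have k' : ∀ w, c.m.pp B x (c.m.J w) = c.m.J (c.m.pp B x w) := fun w =>
        (congrArg (· w) (Std94.J_pp (B := B) (Std94.pmx hc.ok x))).symm
      simp only [Φ', cs, map_add, map_smul, hc.pos, k, k']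
    · simp only [(e x h).2, hc.pos]
  · simpa [h] using h3 x hx a
  · have k : v x (ad (v x) (c'.Φ x)) = c'.Φ x :=
      (congrArg (· (c'.Φ x)) (hv.iso x hx).tgt).trans (hc'.pΦ hx)
    have := cs_inv hc'.ok.Jsq ζ⁻¹ (c'.Φ x)
    rw [inv_inv] at this
    simp only [h, sub_self, zero_smul, one_smul, zero_add, Φ', ← iso_cs hv hx, k, this]

end gen

/-- a reparametrisation which is the identity beyond `s` and stays on one side of `s'` -/
def rep (s' s t : ℝ) : ℝ := s' + (t - s') * Real.smoothTransition ((t - s') / (s - s'))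

theorem rep_sm (s' s : ℝ) : ContDiff ℝ ∞ (rep s' s) :=
  contDiff_const.add ((contDiff_id.sub contDiff_const).mul
    (Real.smoothTransition.contDiff.comp ((contDiff_id.sub contDiff_const).div_const _)))

theorem rep_eq {s' s t : ℝ} (h : 1 ≤ (t - s') / (s - s')) : rep s' s t = t := by
  rw [rep, Real.smoothTransition.one_of_one_le h]; ring

theorem rep_ge {s' s : ℝ} (h : s' < s) (t : ℝ) : s' ≤ rep s' s t := by
  rcases le_total t s' with k | k
  · rw [rep, Real.smoothTransition.zero_of_nonpos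
      (div_nonpos_of_nonpos_of_nonneg (by linarith) (by linarith))]; simp
  · exact le_add_of_nonneg_right (mul_nonneg (by linarith) (Real.smoothTransition.nonneg _))

theorem rep_le {s' s : ℝ} (h : s < s') (t : ℝ) : rep s' s t ≤ s' := by
  rcases le_total t s' with k | k
  · exact add_le_of_nonpos_right
      (mul_nonpos_of_nonpos_of_nonneg (by linarith) (Real.smoothTransition.nonneg _))
  · rw [rep, Real.smoothTransition.zero_of_nonpos
      (div_nonpos_of_nonneg_of_nonpos (by linarith) (by linarith))]; simp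

variable {E3 : Type} [NormedAddCommGroup E3] [NormedSpace ℝ E3] [FiniteDimensional ℝ E3]
  [MeasurableSpace E3] [BorelSpace E3]
  {H3 : Type} [TopologicalSpace H3] {I3 : ModelWithCorners ℝ E3 H3} [I3.Boundaryless]
  {Y : Type} [TopologicalSpace Y] [ChartedSpace H3 Y] [IsManifold I3 ∞ Y] [T2Space Y]
  [MeasurableSpace Y] [BorelSpace Y] [SecondCountableTopology Y] [CompactSpace Y]
  {κ : Type} [Fintype κ] {lam : Type} [Fintype lam]
  {E : Type} [NormedAddCommGroup E] [NormedSpace ℝ E] [FiniteDimensional ℝ E]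
  [MeasurableSpace E] [BorelSpace E]
  {HM : Type} [TopologicalSpace HM] {I : ModelWithCorners ℝ E HM} [I.Boundaryless]
  {M : Type} [TopologicalSpace M] [ChartedSpace HM M] [IsManifold I ∞ M] [MeasurableSpace M]
  [T2Space M] [BorelSpace M]

open Nd18

variable {D : YD I3 Y κ lam} {B : Base M (Option κ) lam} {G : Geo I M (Option κ) lam}
  (K : Nk D B G) {r : ℕ}

/-- admissible configurations in the coordinates of the neck -/
theorem admOn_pb {c : Cfg M (Option κ) lam r} {O : Set M} (hO : IsOpen O) (hc : AdmOn c B G O) :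
    AdmOn (K.pb c) D.B D.G (K.ψ.source ∩ K.ψ ⁻¹' O) :=
  admOn_base (B' := cmB K.ψ B) (c := cmC K.ψ c)
    ⟨cmM_okOn (fun x hx => (K.rel.ld x hx.1).contMDiffAt) (fun _ hx => hx.2) hc.ok,
      FRel.connOn (G := D.G) (K.rel.mono (K.ψ.isOpen_inter_preimage hO) inter_subset_left)
        (fun a x hx => (K.a a x hx.1).symm) (fun _ hx => hx.2) hc.conn,
      fun _ hx => K.rel.sm hx.1 (hc.sm _ hx.2), fun _ hx => hc.pos _ hx.2, hc.z⟩
    (fun a b x hx => (K.P a b x hx.1).symm) (fun a b k l x hx => (K.o a b k l x hx.1).symm)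
    (fun x hx => (K.l x hx.1).symm) K.il.symm

/-- admissible configurations on the cylinder, seen on the neck -/
theorem admOn_push {c : Cfg (Y × ℝ) (Option κ) lam r} {O : Set (Y × ℝ)} (hO : IsOpen O)
    (hc : AdmOn c D.B D.G O) : AdmOn (pb K.ψ.symm c) B G (K.ψ.target ∩ K.ψ.symm ⁻¹' O) :=
  admOn_base (B' := cmB K.ψ.symm D.B) (c := cmC K.ψ.symm c)
    ⟨cmM_okOn (fun x hx => (K.rel'.ld x hx.1).contMDiffAt) (fun _ hx => hx.2) hc.ok,
      FRel.connOn (G' := D.G) (K.rel'.mono (K.ψ.symm.isOpen_inter_preimage hO) inter_subset_left)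
        (fun a x hx => by rw [← K.a a _ (K.ψ.map_target hx.1), K.ψ.right_inv hx.1])
        (fun _ hx => hx.2) hc.conn,
      fun _ hx => K.rel'.sm hx.1 (hc.sm _ hx.2), fun _ hx => hc.pos _ hx.2, hc.z⟩
    (fun a b x hx => by rw [← K.ψ.right_inv hx.1, K.P a b _ (K.ψ.map_target hx.1),
      K.ψ.right_inv hx.1])
    (fun a b k l x hx => by rw [← K.ψ.right_inv hx.1, K.o a b k l _ (K.ψ.map_target hx.1),
      K.ψ.right_inv hx.1])
    (fun x hx => by rw [← K.ψ.right_inv hx.1, K.l _ (K.ψ.map_target hx.1), K.ψ.right_inv hx.1])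
    K.il

/-- the module of a configuration is standard on the neck -/
theorem exists_iso (hD : D.OK) (h3 : Module.finrank ℝ E3 = 3) {c : Cfg M (Option κ) lam r}
    (hc : c.Adm B G) {m : Md Y (Option κ) lam} (hm : (pbM Prod.fst m).OK (IC I3) D.B) {θ : ℝ → ℝ}
    (hθ : ContDiff ℝ ∞ θ) (hJ : ∀ t, θ t ∈ K.J) : ∃ v : Y × ℝ → CL c.m.V m.V,
      Iso0 (IC I3) (K.pb c).m (pbM Prod.fst m) (univ ×ˢ {t | θ t = t}) v := by
  have A := (yd_cy D).adm_sq_of_band hθ hJ ((admOn_pb K isOpen_univ (admOn_univ.2 hc)).mono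
    fun x hx => ⟨K.mem_src.2 hx.2, trivial⟩)
  obtain ⟨u, h1, h2, -⟩ := (yd_cy D).exists_tmp hD.B A 0
  obtain ⟨u', h4⟩ := Ms48.one D hD h3 (pbM (fun y => (y, 0)) (sqC θ (K.pb c)).m) m h1.ok hm
  have i := h2.iso.trans (Iso0.of_mEq isOpen_univ h4 (OK.on h1.ok _) (OK.on hm _))
  exact ⟨_, iso_fix (f := sq θ) (i.mono (subset_univ _)) fun x hx => Prod.ext rfl hx.2⟩

theorem ext_gen (hD : D.OK) (h3 : Module.finrank ℝ E3 = 3) (hG : G.OK B)
    {c : Cfg M (Option κ) lam r} (hc : c.Adm B G) {β : YC Y κ lam} (hβ : D.Adm β) (ζ : Circle)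
    {θ χ : ℝ → ℝ} (hθ : ContDiff ℝ ∞ θ) (hχ : ContDiff ℝ ∞ χ) (hJ : ∀ t, θ t ∈ K.J)
    {S C T : Set ℝ} (hS : IsOpen S) (hC : IsClosed C) (hT : IsOpen T) (h1 : ∀ t ∈ S, θ t = t)
    (h2 : C ⊆ S) (h4 : T ⊆ S) (h5 : ∀ t ∉ C, χ t = 0) (h6 : ∀ t ∈ T, χ t = 1) {l : Filter ℝ}
    (hl : T ∈ l) : ∃ W Φ, (⟨c.m, W, Φ, c.z⟩ : Cfg M _ lam r).Adm B G ∧
      K.Std ⟨c.m, W, Φ, c.z⟩ β ζ l ∧
      ∀ x ∉ K.tm ⁻¹' S, (∀ a, W a x = c.W a x) ∧ Φ x = c.Φ x := by
  obtain ⟨v, hv⟩ := exists_iso K hD h3 hc hβ.adm.ok hθ hJ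
  have SJ : S ⊆ K.J := fun t ht => h1 t ht ▸ hJ t
  have tg : ∀ x ∈ K.tm ⁻¹' S, x ∈ K.ψ.target := fun x hx => K.tgt ▸ SJ hx
  have sm := fun x hx => (K.rel'.ld x (tg x hx)).contMDiffAt
  have i' : Iso0 I c.m (pb K.ψ.symm (cy β)).m (K.tm ⁻¹' S) fun x => v (K.ψ.symm x) :=
    iso_fix (f := fun x => K.ψ (K.ψ.symm x)) (cm_iso0 sm (fun x hx => mk_mem_prod (mem_univ _)
      (h1 _ ((K.snd_symm (tg x hx)).symm ▸ hx : (K.ψ.symm x).2 ∈ S))) hv)
      fun x hx => K.ψ.right_inv (tg x hx)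
  obtain ⟨W, Φ, k1, k2, k3⟩ := patch hG.P hc (hS.preimage K.cont)
    ((admOn_push K isOpen_univ (admOn_univ.2 hβ.adm)).mono fun x hx => ⟨tg x hx, trivial⟩) i'
    (χ := fun x => χ (K.tm x)) (fun x hx => ((sm_snd (I := I3) (Y := Y) hχ _).comp x
      (sm x hx)).congr_of_eventuallyEq ((K.ψ.open_target.eventually_mem (tg x hx)).mono
        fun y hy => by simp only [comp_apply, K.snd_symm hy]))
    (hC.preimage K.cont) (preimage_mono h2) (fun x hx => h5 _ hx) ζ
  have sr : ∀ x ∈ (univ : Set Y) ×ˢ T, x ∈ K.ψ.source := fun x hx => K.mem_src.2 (SJ (h4 hx.2))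
  have k4 := fun x hx => k3 (K.ψ x) (by rw [mem_preimage, K.tm_ψ x (sr x hx)]; exact h4 hx.2)
    (by rw [K.tm_ψ x (sr x hx)]; exact h6 _ hx.2)
  refine ⟨W, Φ, k1, ⟨v, T, hl, h4.trans SJ, hT,
    (hv.mono fun x hx => ⟨trivial, h1 _ (h4 hx.2)⟩).mEq
      ((admOn_pb K isOpen_univ (admOn_univ.2 hc)).mono fun x hx => ⟨sr x hx, trivial⟩).ok
      (OK.on hβ.adm.ok _), fun a w hw x hx => ?_, fun w hw x hx => ?_⟩,
    fun x hx => k2 x fun h => hx (h2 h)⟩
  · obtain rfl := List.eq_nil_of_length_eq_zero (Nat.le_zero.1 hw)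
    have e : G.F.D a (fun x => v (K.ψ.symm x)) (K.ψ x) + β.W a (K.ψ.symm (K.ψ x)).1 ∘L
      v (K.ψ.symm (K.ψ x)) - v (K.ψ.symm (K.ψ x)) ∘L W a (K.ψ x) = 0 := (k4 x hx).1 a
    rw [← K.rel.D (sr x hx) a (u := v) ((K.ψ.eventually_left_inverse (sr x hx)).mono
      fun y hy => (congrArg v hy).symm), K.ψ.left_inv (sr x hx)] at e
    exact (norm_eq_zero.2 ((congrArg (· ∘L trn (v x)) e).trans
      (ContinuousLinearMap.zero_comp _))).le
  · obtain rfl := List.eq_nil_of_length_eq_zero (Nat.le_zero.1 hw)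
    have e : cs β.m.J ζ (v (K.ψ.symm (K.ψ x)) (Φ (K.ψ x))) = β.Φ (K.ψ.symm (K.ψ x)).1 :=
      (k4 x hx).2
    rw [K.ψ.left_inv (sr x hx)] at e
    exact (norm_eq_zero.2 (sub_eq_zero.2 e)).le

omit K in
/-- **EXTH** -/
theorem ext (D : YD I3 Y κ lam) : ExtStmt D := by
  intro hD h3 E _ _ _ _ _ HM _ I _ M _ _ _ _ _ _ _ B G K _ hG r c β ζ s hc hβ hs
  obtain ⟨ε, hε, h⟩ := Metric.isOpen_iff.1 isOpen_Jv s hs
  have st := Real.smoothTransition.contDiff (n := ⊤)
  constructor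
  · intro hq
    have m : s - ε / 2 ∈ K.J :=
      h (by rw [Metric.mem_ball, Real.dist_eq, abs_lt]; constructor <;> linarith)
    refine ext_gen K hD h3 hG hc hβ ζ (rep_sm (s - ε / 2) s)
      (χ := fun t => Real.smoothTransition (t - s - 1)) (st.comp (by fun_prop)) (fun t => ?_)
      isOpen_Ioi (isClosed_Ici (a := s + 1)) (isOpen_Ioi (a := s + 2)) (fun t ht => rep_eq ?_)
      (Ici_subset_Ioi.2 (by linarith)) (Ioi_subset_Ioi (by linarith)) (fun t ht => ?_)
      (fun t ht => ?_) (Ioi_mem_atTop _)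
    · exact ⟨fun a ha => (m.1 a ha).trans_le (rep_ge (by linarith) t), by simp [hq]⟩
    · rw [one_le_div (by linarith)]; linarith [mem_Ioi.1 ht]
    · exact Real.smoothTransition.zero_of_nonpos (by linarith [notMem_Ici.1 ht])
    · exact Real.smoothTransition.one_of_one_le (by linarith [mem_Ioi.1 ht])
  · intro hp
    have m : s + ε / 2 ∈ K.J :=
      h (by rw [Metric.mem_ball, Real.dist_eq, abs_lt]; constructor <;> linarith)
    refine ext_gen K hD h3 hG hc hβ ζ (rep_sm (s + ε / 2) s)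
      (χ := fun t => Real.smoothTransition (s - t - 1)) (st.comp (by fun_prop)) (fun t => ?_)
      isOpen_Iio (isClosed_Iic (a := s - 1)) (isOpen_Iio (a := s - 2)) (fun t ht => rep_eq ?_)
      (Iic_subset_Iio.2 (by linarith)) (Iio_subset_Iio (by linarith)) (fun t ht => ?_)
      (fun t ht => ?_) (Iio_mem_atBot _)
    · exact ⟨by simp [hp], fun b hb => (rep_le (by linarith) t).trans_lt (m.2 b hb)⟩
    · rw [one_le_div_of_neg (by linarith)]; linarith [mem_Iio.1 ht]
    · exact Real.smoothTransition.zero_of_nonpos (by linarith [notMem_Iic.1 ht])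
    · exact Real.smoothTransition.one_of_one_le (by linarith [mem_Iio.1 ht])

end Crest.Agent.X212.One97
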