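import Crest.Agent.X212.Nd18.Props
import Crest.Agent.X212.Std94.Loc
import Crest.Agent.X212.Tmp64.Cfg
import Crest.Agent.X212.Abel74.Gap

/-!
# Row 212, STAB (helper97): the stabiliser of a configuration which is not fixed by the circle
-/

set_option autoImplicit false
set_option linter.unusedSectionVars false
noncomputable section
open scoped Manifold ContDiff Topology InnerProductSpace
open Set Function Filter

namespace Crest.Agent.X212.One97
open An Pj41 Tmp64 Cyf70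
open Wz78 (nab nabE SA)

section gen
variable {E : Type} [NormedAddCommGroup E] [NormedSpace ℝ E] [FiniteDimensional ℝ E]
  [MeasurableSpace E] [BorelSpace E]
  {HM : Type} [TopologicalSpace HM] {I : ModelWithCorners ℝ E HM} [I.Boundaryless]
  {M : Type} [TopologicalSpace M] [ChartedSpace HM M] [IsManifold I ∞ M]
  [MeasurableSpace M] [T2Space M] [BorelSpace M] [SecondCountableTopology M]
  {ι : Type} [Fintype ι] {lam : Type} [Fintype lam] {r : ℕ}
  {B : Base M ι lam} {G : Geo I M ι lam} {c : Cfg M ι lam r} {O : Set M}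

/-- a parallel endomorphism which vanishes at one point vanishes -/
theorem par_zero (hO : IsOpen O) (hc : IsPreconnected O) {m : Md M ι lam} {W : m.Cn}
    {F : Fr I M ι} (hW : ∀ a, ∀ x ∈ O, Skw (W a x)) {T : M → En (Fin m.N)}
    (hs : ∀ x ∈ O, FSm I T x) (hp : ∀ a, ∀ x ∈ O, nabE I F.e W a T x = 0) {y : M} (hy : y ∈ O)
    (h0 : T y = 0) : ∀ x ∈ O, T x = 0 := by
  have s : ∀ x ∈ O, SA I (fun z => (hsL (T z) : m.A)) x := fun x hx => SA.clm hsL (hs x hx)
  obtain ⟨t, ht⟩ := Abel74.const_of_D (F := F) hO hc (fun x hx => SA.inner (s x hx) (s x hx))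
    fun a x hx => by
      rw [Pre.D_def, Wz78.dv_inner (A := m.adW W) a (Wz78.adc_skw (hW a x hx)) (s x hx) (s x hx),
        Wz78.hsL_nab a (hs x hx), hp a x hx]
      simp
  intro x hx
  have e := (ht x hx).trans (ht y hy).symm
  rw [h0, map_zero, inner_zero_left, inner_self_eq_zero] at e
  rw [← Wz78.opL_hsL (T x), e, map_zero]

theorem cs_inv {κ : Type} [Fintype κ] {J : En κ} (hJ : J * J = -1) (ζ : Circle) (v : Eu κ) :
    cs J (ζ⁻¹ : Circle) (cs J ζ v) = v := by
  have JJ : J (J v) = -v := by rw [← mul_apply_eq_comp, hJ]; rfl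
  have n : (ζ : ℂ).re ^ 2 + (ζ : ℂ).im ^ 2 = 1 := by
    have := Circle.normSq_coe ζ
    rw [Complex.normSq_apply] at this
    linarith
  simp only [cs, Circle.coe_inv_eq_conj, Complex.conj_re, Complex.conj_im, map_add, map_smul, JJ]
  linear_combination (norm := module) n • v

/-- **The stabiliser over a connected open set.** -/
theorem stab_on (hB : B.OK I) (hO : IsOpen O) (hc : IsPreconnected O) (A : AdmOn c B G O)
    (hF : ¬Nd18.Fix G.F c O) {u : M → En (Fin c.m.N)} (i : Iso0 I c.m c.m O u)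
    (hp : Par0 G.F c.W c.W O u) {ζ : Circle} (hΦ : ∀ x ∈ O, c.Φ x = cs c.m.J ζ (u x (c.Φ x))) :
    ∃ ε : ℝ, (ζ : ℂ) = ε ∧ ∀ x ∈ O, u x = ε • c.m.p x := by
  have H := fun x hx => Std94.pmx_on (x := x) A.ok hx
  choose! t ξ h1 h2 h3 using fun x hx => Std94.iso0_aut (x := x) hB (H x hx) i hx
  have pu : ∀ a, ∀ x ∈ O, nabE I G.F.e c.W a u x = 0 := fun a x hx => by
    rw [← hp x hx a, add_sub_assoc]; rfl
  have pa : ∀ a, ∀ x ∈ O, nabE I G.F.e c.W a (fun y => ad (u y)) x = 0 := fun a x hx => by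
    rw [← hp.symm i.su A.conn.sk A.conn.sk x hx a, add_sub_assoc]; rfl
  have e : ∀ x ∈ O, u x - ad (u x) = (2 : ℝ) • opL (ξ x) := fun x hx => by
    rw [ad_trn, h2 x hx, Std94.trn_comm (H x hx) _ (h1 x hx), two_smul]; abel
  have sd : ∀ x ∈ O, SA I (fun y => u y - ad (u y)) x := fun x hx =>
    (i.su x hx).sub (i.su x hx).ad
  have par : ∀ s : ℝ, Nd18.ParS G.F c O fun x => s • hsL (u x - ad (u x)) := fun s =>
    ⟨fun x hx => ContMDiffAt.contMDiffWithinAt
        ((show SA I (fun _ => s) x from contMDiffAt_const).smul (SA.clm hsL (sd x hx))),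
      fun x hx => by
        rw [e x hx, map_smul, Wz78.hsL_opL]
        exact Submodule.smul_mem _ _ (Submodule.smul_mem _ _ (h1 x hx)),
      fun a x hx => by
        rw [Wz78.nab_csmul a s (SA.clm hsL (sd x hx)), Wz78.hsL_nab a (sd x hx),
          Wz78.nabE_sub a (i.su x hx) (i.su x hx).ad, pu a x hx, pa a x hx]
        simp⟩
  have k : ∀ x ∈ O, (t x - (ζ : ℂ).re) • c.Φ x = 0 ∧
      opL (ξ x) (c.Φ x) = -(ζ : ℂ).im • c.m.J (c.Φ x) := fun x hx => by
    have a := cs_inv A.ok.Jsq ζ (u x (c.Φ x))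
    rw [← hΦ x hx, h2 x hx, add_apply, smul_apply, A.pΦ hx] at a
    simp only [cs, Circle.coe_inv_eq_conj, Complex.conj_re, Complex.conj_im] at a
    have b := congrArg (fun w => ⟪w, c.Φ x⟫_ℝ) a
    have s1 : ⟪c.m.J (c.Φ x), c.Φ x⟫_ℝ = 0 := by
      have := A.ok.Jsk (c.Φ x) (c.Φ x)
      rw [real_inner_comm (c.m.J _)] at this
      linarith
    have s2 : ⟪opL (ξ x) (c.Φ x), c.Φ x⟫_ℝ = 0 := by
      have := (h1 x hx).1 (c.Φ x) (c.Φ x)
      rw [real_inner_comm (opL (ξ x) _)] at this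
      linarith
    simp only [inner_add_left, real_inner_smul_left, s1, s2, mul_zero, add_zero] at b
    have d : (t x - (ζ : ℂ).re) • c.Φ x = 0 := by
      rcases eq_or_ne (c.Φ x) 0 with h | h
      · rw [h, smul_zero]
      · rw [mul_right_cancel₀ (inner_self_ne_zero.2 h) b, sub_self, zero_smul]
    exact ⟨d, by linear_combination (norm := module) -a - d⟩
  have im : (ζ : ℂ).im = 0 := by
    by_contra h
    refine hF ⟨_, par (-(2 * (ζ : ℂ).im)⁻¹), fun x hx => ?_⟩
    rw [map_smul, Wz78.opL_hsL, e x hx, smul_apply, smul_apply, (k x hx).2, smul_smul, smul_smul]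
    rw [show -(2 * (ζ : ℂ).im)⁻¹ * 2 * -(ζ : ℂ).im = 1 by field_simp, one_smul]
  obtain ⟨y, hy, h0⟩ : ∃ y ∈ O, c.Φ y ≠ 0 := by
    by_contra! h
    exact hF ⟨_, par 0, fun x hx => by simp [h x hx]⟩
  have ty : t y = (ζ : ℂ).re := sub_eq_zero.1 ((smul_eq_zero.1 (k y hy).1).resolve_right h0)
  have n : (ζ : ℂ).re ^ 2 = 1 := by
    have := Circle.normSq_coe ζ
    rw [Complex.normSq_apply, im] at this
    linarith
  have z : ξ y = 0 := by
    have := h3 y hy
    rw [ty, n] at this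
    exact norm_eq_zero.1 (pow_eq_zero_iff two_ne_zero |>.1 (by linarith))
  have sp : ∀ x ∈ O, SA I (fun x => (ζ : ℂ).re • c.m.p x) x := fun x hx =>
    (show SA I (fun _ => (ζ : ℂ).re) x from contMDiffAt_const).smul (A.ok.sp x hx)
  refine ⟨(ζ : ℂ).re, Complex.ext (by simp) (by simp [im]), fun x hx => sub_eq_zero.1
    (par_zero (F := G.F) (T := fun x => u x - (ζ : ℂ).re • c.m.p x) hO hc A.conn.sk
      (fun x hx => (i.su x hx).sub (sp x hx)) (fun a x hx => ?_) hy ?_ x hx)⟩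
  · rw [Wz78.nabE_sub a (i.su x hx) (sp x hx), pu a x hx,
      Wz78.nabE_smul a contMDiffAt_const (A.ok.sp x hx),
      show nabE I G.F.e c.W a c.m.p x = 0 from A.conn.par a x hx]
    simp
  · simp [h2 y hy, ty, z]

end gen

variable {E3 : Type} [NormedAddCommGroup E3] [NormedSpace ℝ E3] [FiniteDimensional ℝ E3]
  [MeasurableSpace E3] [BorelSpace E3]
  {H3 : Type} [TopologicalSpace H3] {I3 : ModelWithCorners ℝ E3 H3} [I3.Boundaryless]
  {Y : Type} [TopologicalSpace Y] [ChartedSpace H3 Y] [IsManifold I3 ∞ Y] [T2Space Y]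
  [MeasurableSpace Y] [BorelSpace Y] [SecondCountableTopology Y] [CompactSpace Y]
  {κ : Type} [Fintype κ] {lam : Type} [Fintype lam]

open Nd18

theorem yd_cy (D : YD I3 Y κ lam) : Cy D.F D.B D.G :=
  ⟨rfl, rfl, fun _ _ _ _ _ _ _ => rfl, fun _ _ _ => rfl, fun _ => rfl,
    fun a _ _ _ => by cases a <;> rfl⟩

/-- **STAB** -/
theorem stab (D : YD I3 Y κ lam) : StabStmt D := by
  intro hD hY β hβ hF a b u ζ hab h
  have A := admOn_univ.2 hβ.adm
  have hO : IsOpen ((univ : Set Y) ×ˢ Ioo a b) := isOpen_univ.prod isOpen_Ioo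
  have A' := A.mono (subset_univ (univ ×ˢ Ioo a b))
  have i := Iso0.of_mEq hO h.m A'.ok A'.ok
  have p := (par0_iff (A'.conn.proj' hD.B)).2 h.W
  have key : ∀ t ∈ Ioo a b, ∃ ε : ℝ, (ζ : ℂ) = ε ∧ ∀ y, u (y, t) = ε • β.m.p y := fun t ht => by
    have sm := fun y => i.su (y, t) ⟨trivial, ht⟩
    obtain ⟨ε, h1, h2⟩ := stab_on (u := fun x => u (x.1, t)) (ζ := ζ) hD.B isOpen_univ
      isPreconnected_univ A hF
      ⟨fun x _ => fsm_sq (θ := fun _ => t) contDiff_const (sm x.1),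
        fun x _ => i.iso (x.1, t) ⟨trivial, ht⟩, fun x _ => i.J (x.1, t) ⟨trivial, ht⟩,
        fun x _ => i.ρ (x.1, t) ⟨trivial, ht⟩, fun x _ => i.j (x.1, t) ⟨trivial, ht⟩⟩
      (fun x _ a => by
        have e := (yd_cy D).D_sq (θ := fun _ => t) contDiff_const (x := x) (sm x.1) a
        have e' := p (x.1, t) ⟨trivial, ht⟩ a
        cases a with
        | none =>
          have w : ∀ v v' : En (Fin β.m.N), v' = 0 →
              v' + β.W none x.1 ∘L v - v ∘L β.W none x.1 = 0 := fun v v' h => by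
            simp [hβ.tmp, h]
          exact w _ _ (e.trans (by simp [sw]; rfl))
        | some a => exact (congrArg (· + _ - _) (e.trans (one_smul _ _))).trans e')
      fun x _ => h.Φ (x.1, t) ⟨trivial, ht⟩
    exact ⟨ε, h1, fun y => h2 (y, t) trivial⟩
  obtain ⟨ε, h1, -⟩ := key _ ⟨left_lt_add_div_two.2 hab, add_div_two_lt_right.2 hab⟩
  refine ⟨ε, h1, fun x hx => ?_⟩
  obtain ⟨ε', h2, h3⟩ := key x.2 hx.2
  obtain rfl : ε = ε' := by exact_mod_cast h1.symm.trans h2
  exact h3 x.1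

end Crest.Agent.X212.One97
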